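import Vale.Agent.P243.Bundle.Defs

/-!
# P243 two-bundle covering: areas
-/

namespace Vale.Agent.P243.Bundle

open MeasureTheory Set Module
open scoped ENNReal RealInnerProductSpace

noncomputable section

lemma isAddHaar_prod : (volume : Measure (ℝ × ℝ)).IsAddHaarMeasure :=
  inferInstanceAs ((volume : Measure ℝ).prod (volume : Measure ℝ)).IsAddHaarMeasure

/-- A linear map of the coordinate plane given by its four entries. -/
def mat (a b c d : ℝ) : ℝ × ℝ →ₗ[ℝ] ℝ × ℝ where
  toFun v := (a * v.1 + b * v.2, c * v.1 + d * v.2)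
  map_add' u v := by ext <;> simp <;> ring
  map_smul' r v := by ext <;> simp <;> ring

@[simp] lemma mat_apply (a b c d : ℝ) (v : ℝ × ℝ) :
    mat a b c d v = (a * v.1 + b * v.2, c * v.1 + d * v.2) := rfl

lemma det_mat (a b c d : ℝ) : LinearMap.det (mat a b c d) = a * d - b * c := by
  rw [← LinearMap.det_toMatrix (Basis.finTwoProd ℝ), Matrix.det_fin_two]
  simp [LinearMap.toMatrix_apply, mat]

lemma volume_mat_image (a b c d : ℝ) (S : Set (ℝ × ℝ)) :
    volume (mat a b c d '' S) = ENNReal.ofReal |a * d - b * c| * volume S := by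
  have := isAddHaar_prod
  rw [Measure.addHaar_image_linearMap, det_mat]

lemma volume_translate_image (c : ℝ × ℝ) (S : Set (ℝ × ℝ)) :
    volume ((fun v => c + v) '' S) = volume S := by
  have := isAddHaar_prod
  rw [image_add_left, measure_preimage_add]

lemma volume_affine_rect (c : ℝ × ℝ) (a b p q x₀ x₁ y₀ y₁ : ℝ) (hx : x₀ ≤ x₁) :
    volume ((fun v => c + mat a b p q v) '' (Icc x₀ x₁ ×ˢ Icc y₀ y₁))
      = ENNReal.ofReal (|a * q - b * p| * ((x₁ - x₀) * (y₁ - y₀))) := by
  rw [← image_image (fun v => c + v) (mat a b p q), volume_translate_image, volume_mat_image,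
    Measure.volume_eq_prod, Measure.prod_prod, Real.volume_Icc, Real.volume_Icc,
    ← ENNReal.ofReal_mul (sub_nonneg.2 hx), ← ENNReal.ofReal_mul (abs_nonneg _)]

lemma isCompact_affine_rect (c : ℝ × ℝ) (a b p q x₀ x₁ y₀ y₁ : ℝ) :
    IsCompact ((fun v => c + mat a b p q v) '' (Icc x₀ x₁ ×ˢ Icc y₀ y₁)) :=
  (isCompact_Icc.prod isCompact_Icc).image
    (continuous_const.add (LinearMap.continuous_of_finiteDimensional _))

/-- The standard triangle. -/
def tri : Set (ℝ × ℝ) := {v | 0 ≤ v.1 ∧ 0 ≤ v.2 ∧ v.1 + v.2 ≤ 1}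

lemma half_le_volume_tri : ENNReal.ofReal (1 / 2) ≤ volume tri := by
  have := isAddHaar_prod
  have hsub : Icc (0 : ℝ) 1 ×ˢ Icc (0 : ℝ) 1
      ⊆ tri ∪ (fun v : ℝ × ℝ => (1, 1) - v) ⁻¹' tri := by
    rintro ⟨x, y⟩ ⟨⟨hx0, hx1⟩, hy0, hy1⟩
    by_cases h : x + y ≤ 1
    · exact Or.inl ⟨hx0, hy0, h⟩
    · refine Or.inr ⟨?_, ?_, ?_⟩ <;> simp <;> linarith
  have h1 : (1 : ℝ≥0∞) ≤ volume tri + volume tri := by
    calc (1 : ℝ≥0∞) = volume (Icc (0 : ℝ) 1 ×ˢ Icc (0 : ℝ) 1) := by
          rw [Measure.volume_eq_prod, Measure.prod_prod, Real.volume_Icc]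
          simp
      _ ≤ volume (tri ∪ (fun v : ℝ × ℝ => (1, 1) - v) ⁻¹' tri) := measure_mono hsub
      _ ≤ volume tri + volume ((fun v : ℝ × ℝ => (1, 1) - v) ⁻¹' tri) := measure_union_le _ _
      _ = volume tri + volume tri := by
          congr 1
          have hm : MeasurableSet tri := by
            simp only [tri]
            exact ((isClosed_le continuous_const continuous_fst).inter
              ((isClosed_le continuous_const continuous_snd).inter
                (isClosed_le (continuous_fst.add continuous_snd) continuous_const))).measurableSet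
          exact (Measure.measurePreserving_sub_left volume _).measure_preimage hm.nullMeasurableSet
  by_cases ht : volume tri = ∞
  · simp [ht]
  · rw [ENNReal.ofReal_le_iff_le_toReal ht]
    have := ENNReal.toReal_mono (by simp [ht]) h1
    rw [ENNReal.toReal_one, ENNReal.toReal_add ht ht] at this
    linarith

lemma volume_line_zero : volume {v : ℝ × ℝ | v.2 = 0} = 0 := by
  rw [show {v : ℝ × ℝ | v.2 = 0} = univ ×ˢ ({0} : Set ℝ) by ext; simp, Measure.volume_eq_prod,
    Measure.prod_prod, Real.volume_singleton, mul_zero]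

lemma half_le_two_triangles {U : Set (ℝ × ℝ)} {p q : ℝ} (hq0 : 0 ≤ q) (hq1 : q ≤ 1)
    (h1 : mat 1 p 0 (1 - q) '' tri ⊆ U) (h2 : mat 1 p 0 (-q) '' tri ⊆ U) :
    ENNReal.ofReal (1 / 2) ≤ volume U := by
  have := isAddHaar_prod
  have hm : NullMeasurableSet (mat 1 p 0 (-q) '' tri) volume := by
    refine IsCompact.measurableSet ?_ |>.nullMeasurableSet
    refine IsCompact.image ?_ (LinearMap.continuous_of_finiteDimensional _)
    refine (isCompact_Icc.prod isCompact_Icc : IsCompact (Icc (0 : ℝ) 1 ×ˢ Icc (0 : ℝ) 1))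
      |>.of_isClosed_subset ?_ ?_
    · simp only [tri]
      exact (isClosed_le continuous_const continuous_fst).inter
        ((isClosed_le continuous_const continuous_snd).inter
          (isClosed_le (continuous_fst.add continuous_snd) continuous_const))
    · rintro v ⟨ha, hb, hc⟩
      exact ⟨⟨ha, by linarith⟩, hb, by linarith⟩
  have hd : AEDisjoint volume (mat 1 p 0 (1 - q) '' tri) (mat 1 p 0 (-q) '' tri) := by
    refine measure_mono_null ?_ volume_line_zero
    rintro w ⟨⟨v, ⟨-, hv, -⟩, rfl⟩, v', ⟨-, hv', -⟩, he⟩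
    have h := congrArg Prod.snd he
    simp only [mat_apply, zero_mul, zero_add] at h
    show (mat 1 p 0 (1 - q) v).2 = 0
    simp only [mat_apply, zero_mul, zero_add]
    linarith [mul_nonneg (sub_nonneg.2 hq1) hv, mul_nonneg hq0 hv']
  calc ENNReal.ofReal (1 / 2) ≤ volume tri := half_le_volume_tri
    _ = ENNReal.ofReal (1 - q) * volume tri + ENNReal.ofReal q * volume tri := by
        rw [← add_mul, ← ENNReal.ofReal_add (by linarith) hq0]
        norm_num
    _ = volume (mat 1 p 0 (1 - q) '' tri) + volume (mat 1 p 0 (-q) '' tri) := by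
        rw [volume_mat_image, volume_mat_image]
        simp [abs_of_nonneg, hq0, sub_nonneg.2 hq1]
    _ = volume (mat 1 p 0 (1 - q) '' tri ∪ mat 1 p 0 (-q) '' tri) :=
        (measure_union₀ hm hd).symm
    _ ≤ volume U := measure_mono (union_subset h1 h2)

/-- A cylinder given by oblique coordinates `T` along the direction `w`: its relative area is at
most twice the area of its oblique section when the oblique shadow of the body has area at least
one half. -/
lemma exists_cylinder (K : Set E3) (T : E3 →ₗ[ℝ] ℝ × ℝ) (R : ℝ × ℝ →ₗ[ℝ] E3) (w : E3)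
    (hw : w ≠ 0) (hTw : T w = 0) (hTR : ∀ v, T (R v) = v)
    (hdec : ∀ x, ∃ r : ℝ, x = R (T x) + r • w) (hK : ENNReal.ofReal (1 / 2) ≤ volume (T '' K))
    (S : Set (ℝ × ℝ)) (hS : IsCompact S) (s : ℝ) (hs : volume S ≤ ENNReal.ofReal s) :
    ∃ (u : E3) (B : Set ↥(plane u)), ‖u‖ = 1 ∧ MeasurableSet B ∧
      (∀ x, T x ∈ S → projPlane u x ∈ B) ∧
      planeArea u B / planeArea u (projPlane u '' K) ≤ ENNReal.ofReal (2 * s) := by
  have := isAddHaar_prod
  have : Fact (finrank ℝ E3 = 2 + 1) := ⟨by simp⟩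
  set u : E3 := ‖w‖⁻¹ • w with hu
  have hun : ‖u‖ = 1 := norm_smul_inv_norm hw
  have hu0 : u ≠ 0 := fun h => by rw [h, norm_zero] at hun; exact one_ne_zero hun.symm
  have hwu : w ∈ ℝ ∙ u := by
    rw [Submodule.mem_span_singleton]
    exact ⟨‖w‖, by rw [hu, smul_smul, mul_inv_cancel₀ (norm_ne_zero_iff.2 hw), one_smul]⟩
  let ψ : ℝ × ℝ →ₗ[ℝ] ↥(plane u) := (plane u).orthogonalProjectionOnto.toLinearMap ∘ₗ R
  have hproj : ∀ x, projPlane u x = ψ (T x) := by
    intro x
    obtain ⟨r, hr⟩ := hdec x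
    have h0 : (plane u).orthogonalProjectionOnto w = 0 :=
      Submodule.orthogonalProjectionOnto_eq_zero_iff.2
        (Submodule.le_orthogonal_orthogonal _ hwu)
    conv_lhs => rw [hr]
    simp [projPlane, ψ, h0]
  have hψ : Function.Injective ψ := by
    rw [injective_iff_map_eq_zero]
    intro v hv
    have h1 : R v ∈ (plane u)ᗮ := Submodule.orthogonalProjectionOnto_eq_zero_iff.1 hv
    rw [plane, Submodule.orthogonal_orthogonal, Submodule.mem_span_singleton] at h1
    obtain ⟨r, hr⟩ := h1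
    rw [← hTR v, ← hr, hu]
    simp [hTw]
  have hfin : finrank ℝ (ℝ × ℝ) = finrank ℝ ↥(plane u) := by
    rw [plane, Submodule.finrank_orthogonal_span_singleton (n := 2) hu0]
    simp
  let e : (ℝ × ℝ) ≃L[ℝ] ↥(plane u) :=
    (LinearMap.linearEquivOfInjective ψ hψ hfin).toContinuousLinearEquiv
  have he : ∀ v, e v = ψ v := fun v => rfl
  obtain ⟨c, hc0, hct, hc⟩ : ∃ c : ℝ≥0∞, c ≠ 0 ∧ c ≠ ∞ ∧
      ∀ A, volume (e '' A) = c * volume A := by
    have : (Measure.map e.symm (volume : Measure ↥(plane u))).IsAddHaarMeasure :=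
      e.symm.isAddHaarMeasure_map _
    refine ⟨Measure.addHaarScalarFactor (Measure.map e.symm volume) volume, ?_,
      ENNReal.coe_ne_top, fun A => ?_⟩
    · exact ENNReal.coe_ne_zero.2 (Measure.addHaarScalarFactor_pos_of_isAddHaarMeasure _ _).ne'
    · have h := congrArg (fun m : Measure (ℝ × ℝ) => m A)
        (Measure.isAddLeftInvariant_eq_smul
          (Measure.map e.symm (volume : Measure ↥(plane u))) (volume : Measure (ℝ × ℝ)))
      have hmap : Measure.map e.symm volume A = volume (e '' A) := by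
        rw [show ⇑e.symm = ⇑e.symm.toHomeomorph.toMeasurableEquiv from rfl, MeasurableEquiv.map_apply]
        congr 1
        exact (e.toEquiv.image_eq_preimage_symm A).symm
      simp only [hmap, Measure.smul_apply] at h
      rw [h]
      rfl
  refine ⟨u, e '' S, hun, (hS.image e.continuous).measurableSet, fun x hx =>
    ⟨T x, hx, by rw [he, hproj]⟩, ?_⟩
  have hsh : projPlane u '' K = e '' (T '' K) := by
    rw [image_image]
    exact image_congr fun x _ => by rw [hproj, he]
  rw [planeArea, planeArea, hsh, hc, hc, ENNReal.mul_div_mul_left _ _ hc0 hct]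
  refine (ENNReal.div_le_div hs hK).trans (le_of_eq ?_)
  rw [← ENNReal.ofReal_div_of_pos (by norm_num)]
  ring_nf

end

end Vale.Agent.P243.Bundle
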