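import Vale.Agent.P243.Bundle.Select

/-!
# P243 two-bundle covering: the total relative area
-/

namespace Vale.Agent.P243.Bundle

open MeasureTheory Set Real Finset

noncomputable section

variable {n : ℕ}

/-- The mass of a parameter cell. -/
def cell (n : ℕ) (κ : ℕ → ℝ) (a b : ℕ) : ℝ :=
  gd (par n a) * dl n * (gd (par n a - κ b) * Dl n)

lemma cell_nonneg (hn : 2 ≤ n) (κ : ℕ → ℝ) (a b : ℕ) : 0 ≤ cell n κ a b := by
  have := dl_pos hn
  have := Dl_pos hn
  have := gd_pos (par n a)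
  have := gd_pos (par n a - κ b)
  rw [cell]; positivity

lemma sum_cell_le (hn : 2 ≤ n) (κ : ℕ → ℝ) (c : ℝ) (hκ : ∀ b, κ b = c + b * Dl n) :
    ∑ a ∈ range (2 * MM n), ∑ b ∈ range (2 * MM n), cell n κ a b ≤ 1 + 8 / n := by
  have hD := Dl_pos hn
  have hd := dl_pos hn
  have hD1 : Dl n ≤ 1 := (Dl_le hn).trans (by norm_num)
  have hd1 : dl n ≤ 1 := (dl_le hn).trans hD1
  have hn' : (2 : ℝ) ≤ n := by exact_mod_cast hn
  calc ∑ a ∈ range (2 * MM n), ∑ b ∈ range (2 * MM n), cell n κ a b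
      ≤ ∑ a ∈ range (2 * MM n), gd (par n a) * dl n * (1 + 2 * Dl n) := by
        refine Finset.sum_le_sum fun a _ => ?_
        simp only [cell, ← Finset.mul_sum]
        refine mul_le_mul_of_nonneg_left ?_ (mul_nonneg (gd_pos _).le hd.le)
        refine le_of_eq_of_le (Finset.sum_congr rfl fun b _ => ?_)
          (sum_gd_down (par n a - c) hD.le hD1 (2 * MM n))
        rw [hκ, sub_add_eq_sub_sub]
    _ = (∑ a ∈ range (2 * MM n), gd (-((MM n : ℕ) : ℝ) * dl n + a * dl n) * dl n)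
          * (1 + 2 * Dl n) := by
        rw [Finset.sum_mul]
        refine Finset.sum_congr rfl fun a _ => ?_
        rw [show par n a = -((MM n : ℕ) : ℝ) * dl n + a * dl n by rw [par, idx]; ring]
    _ ≤ (1 + 2 * dl n) * (1 + 2 * Dl n) :=
        mul_le_mul_of_nonneg_right (sum_gd_up _ hd.le hd1 _) (by linarith)
    _ ≤ 1 + 8 / n := by
        have h1 : Dl n ≤ 1 / n := by
          rw [Dl, div_le_div_iff₀ (by positivity) (by positivity)]
          nlinarith
        have h2 := dl_le hn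
        have h3 : dl n * Dl n ≤ 1 * Dl n := mul_le_mul_of_nonneg_right hd1 hD.le
        rw [show (8 : ℝ) / n = 8 * (1 / n) by ring]
        linarith

lemma sum_gain (hn : 2 ≤ n) :
    1 / 16384 ≤ ∑ a ∈ range (2 * MM n), ∑ b ∈ range (2 * MM n),
      (1 / 2 - dens n a b) * cell n (lev₁ n) a b := by
  classical
  have hD := Dl_pos hn
  have hd := dl_pos hn
  have hn' : (2 : ℝ) ≤ n := by exact_mod_cast hn
  have hnn : ∀ a b, 0 ≤ (1 / 2 - dens n a b) * cell n (lev₁ n) a b := fun a b =>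
    mul_nonneg (by rw [dens]; split_ifs <;> norm_num) (cell_nonneg hn _ a b)
  let f : ℕ × ℕ → ℕ × ℕ := fun p => (n ^ 3 + MM n + p.1, MM n + p.1 / n - p.2)
  let dom := range (n ^ 3) ×ˢ range (n ^ 2)
  have hM : n ^ 3 + n ^ 3 + n ^ 2 ≤ MM n := by
    have h23 : n ^ 2 ≤ n ^ 3 := Nat.pow_le_pow_right (by omega) (by norm_num)
    have h34 : n ^ 3 ≤ n ^ 4 := Nat.pow_le_pow_right (by omega) (by norm_num)
    simp only [MM]
    omega
  have hinj : Set.InjOn f dom := by
    rintro ⟨a, b⟩ hab ⟨a', b'⟩ hab' h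
    simp only [dom, coe_product, coe_range, Set.mem_prod, Set.mem_Iio] at hab hab'
    simp only [f, Prod.mk.injEq] at h
    obtain ⟨h1, h2⟩ := h
    have ha : a = a' := by omega
    subst ha
    have hb : b = b' := by
      generalize a / n = q at h2
      omega
    rw [hb]
  have hsub : dom.image f ⊆ range (2 * MM n) ×ˢ range (2 * MM n) := by
    intro p hp
    simp only [dom, Finset.mem_image, mem_product, Finset.mem_range] at hp
    obtain ⟨⟨a, b⟩, ⟨ha, hb⟩, rfl⟩ := hp
    have : a / n ≤ a := Nat.div_le_self a n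
    simp only [f, mem_product, Finset.mem_range]
    generalize a / n = q at this ⊢
    omega
  rw [← Finset.sum_product']
  refine le_trans ?_ (Finset.sum_le_sum_of_subset_of_nonneg hsub fun p _ _ => hnn p.1 p.2)
  rw [Finset.sum_image hinj]
  have hterm : ∀ p ∈ dom, 1 / 16384 * (dl n * Dl n)
      ≤ (1 / 2 - dens n (f p).1 (f p).2) * cell n (lev₁ n) (f p).1 (f p).2 := by
    rintro ⟨a, b⟩ hp
    simp only [dom, mem_product, Finset.mem_range] at hp
    have hdm := Nat.div_add_mod a n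
    have hq : a / n ≤ a := Nat.div_le_self a n
    have hpar : par n (f (a, b)).1 = 1 + (a : ℝ) * dl n := by
      simp only [f, par, idx, dl]
      push_cast
      field_simp
      ring
    have hlev : par n (f (a, b)).1 - lev₁ n (f (a, b)).2
        = 1 + ((a % n : ℕ) : ℝ) * dl n + (b : ℝ) * Dl n := by
      rw [hpar]
      simp only [f, lev₁, idx]
      rw [Nat.cast_sub (by generalize a / n = q; omega)]
      have hcast : (a : ℝ) = n * ((a / n : ℕ) : ℝ) + ((a % n : ℕ) : ℝ) := by exact_mod_cast hdm.symm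
      rw [hcast]
      simp only [dl, Dl, Nat.cast_add]
      field_simp
      ring
    have hab : (a : ℝ) * dl n ≤ 1 := by
      rw [dl, mul_one_div, div_le_one (by positivity)]
      exact_mod_cast hp.1.le
    have hmod : ((a % n : ℕ) : ℝ) * dl n ≤ Dl n := by
      rw [dl, Dl, mul_one_div, div_le_div_iff₀ (by positivity) (by positivity)]
      have : ((a % n : ℕ) : ℝ) ≤ n := by exact_mod_cast (Nat.mod_lt a (by omega)).le
      nlinarith [mul_le_mul_of_nonneg_right this (sq_nonneg (n : ℝ))]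
    have hb1 : ((b : ℝ) + 1) * Dl n ≤ 1 := by
      rw [Dl, mul_one_div, div_le_one (by positivity)]
      exact_mod_cast hp.2
    have h0 : 0 ≤ (a : ℝ) * dl n := by positivity
    have h0' : 0 ≤ ((a % n : ℕ) : ℝ) * dl n := by positivity
    have h0'' : 0 ≤ (b : ℝ) * Dl n := by positivity
    have hreg : (1 ≤ par n (f (a, b)).1 ∧ par n (f (a, b)).1 ≤ 2) ∧
        (1 ≤ par n (f (a, b)).1 - lev₁ n (f (a, b)).2 ∧
          par n (f (a, b)).1 - lev₁ n (f (a, b)).2 ≤ 2) := by
      rw [hlev, hpar]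
      refine ⟨⟨by linarith, by linarith⟩, by linarith, by linarith⟩
    rw [dens, if_pos hreg, cell]
    have g1 := gd_ge (by linarith [hreg.1.1]) hreg.1.2
    have g2 := gd_ge (by linarith [hreg.2.1]) hreg.2.2
    have g3 := mul_le_mul g1 g2 (by norm_num) (gd_pos _).le
    have g4 := mul_le_mul_of_nonneg_right g3 (mul_nonneg hd.le hD.le)
    linarith
  refine le_trans ?_ (Finset.sum_le_sum hterm)
  rw [Finset.sum_const, nsmul_eq_mul]
  refine le_of_eq ?_
  simp only [dom, card_product, card_range, dl, Dl]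
  push_cast
  field_simp

lemma thick_wid_le (hn : 2 ≤ n) {θ α β : ℝ} (hθ : θ ≤ 1 / 2) (hα : 0 ≤ α)
    (hβ : 0 ≤ β) :
    4 * α * β * thick n * wid n θ ≤ (θ + 344 / n) / 2 * (α * dl n * (β * Dl n)) := by
  have hn' : (2 : ℝ) ≤ n := by exact_mod_cast hn
  have hD := Dl_pos hn
  have hd := dl_pos hn
  have h1 : thick n = dl n / 2 * (1 + 12 / n) := by
    rw [thick, dl, Dl]; field_simp; ring
  have h2 : wid n θ = Dl n / 4 * (θ + 2 / n + 24 / (n : ℝ) ^ 2) := by
    rw [wid, dl, Dl]; field_simp; ring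
  obtain ⟨e, he⟩ : ∃ e : ℝ, e = 1 / n := ⟨_, rfl⟩
  have he0 : 0 ≤ e := by rw [he]; positivity
  have he1 : e ≤ 1 := by rw [he, div_le_one (by linarith)]; linarith
  have h3 : (1 + 12 / n) * (θ + 2 / n + 24 / (n : ℝ) ^ 2) ≤ θ + 344 / n := by
    rw [show (12 : ℝ) / n = 12 * e by rw [he]; ring, show (2 : ℝ) / n = 2 * e by rw [he]; ring,
      show (344 : ℝ) / n = 344 * e by rw [he]; ring,
      show 24 / (n : ℝ) ^ 2 = 24 * (e * e) by rw [he]; ring]
    nlinarith [mul_le_mul_of_nonneg_left he1 he0, mul_le_mul_of_nonneg_left hθ he0,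
      mul_le_mul_of_nonneg_left (mul_le_mul_of_nonneg_left he1 he0) he0]
  rw [h1, h2]
  have := mul_le_mul_of_nonneg_left h3 (show 0 ≤ α * dl n * (β * Dl n) / 2 by positivity)
  linarith

/-- The cost of the two bundles. -/
lemma sum_cost_le (hn : 2 ≤ n) :
    (∑ a ∈ range (2 * MM n), ∑ b ∈ range (2 * MM n),
        4 * gd (par n a) * gd (par n a - lev₁ n b) * thick n * wid n (dens n a b))
      + ∑ a ∈ range (2 * MM n), ∑ b ∈ range (2 * MM n),
        4 * gd (par n a) * gd (par n a - lev₂ n b) * thick n * wid n (1 / 2)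
      ≤ (1 / 2 + 344 / n) * (1 + 8 / n) - 1 / 32768 := by
  have hA : ∑ a ∈ range (2 * MM n), ∑ b ∈ range (2 * MM n),
      4 * gd (par n a) * gd (par n a - lev₁ n b) * thick n * wid n (dens n a b)
      ≤ ∑ a ∈ range (2 * MM n), ∑ b ∈ range (2 * MM n),
        ((1 / 2 + 344 / n) / 2 * cell n (lev₁ n) a b
          - 1 / 2 * ((1 / 2 - dens n a b) * cell n (lev₁ n) a b)) := by
    refine Finset.sum_le_sum fun a _ => Finset.sum_le_sum fun b _ => ?_
    refine (thick_wid_le hn
      (by rw [dens]; split_ifs <;> norm_num) (gd_pos _).le (gd_pos _).le).trans (le_of_eq ?_)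
    rw [cell]
    ring
  have hB : ∑ a ∈ range (2 * MM n), ∑ b ∈ range (2 * MM n),
      4 * gd (par n a) * gd (par n a - lev₂ n b) * thick n * wid n (1 / 2)
      ≤ ∑ a ∈ range (2 * MM n), ∑ b ∈ range (2 * MM n),
        (1 / 2 + 344 / n) / 2 * cell n (lev₂ n) a b :=
    Finset.sum_le_sum fun a _ => Finset.sum_le_sum fun b _ =>
      thick_wid_le hn le_rfl (gd_pos _).le (gd_pos _).le
  simp only [Finset.sum_sub_distrib, ← Finset.mul_sum] at hA hB
  have h1 := sum_cell_le hn (lev₁ n) (-((MM n : ℕ) : ℝ) * Dl n) fun b => by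
    rw [lev₁, idx]; ring
  have h2 := sum_cell_le hn (lev₂ n) ((1 / 2 - ((MM n : ℕ) : ℝ)) * Dl n) fun b => by
    rw [lev₂, idx]; ring
  have h3 := sum_gain hn
  have hc : 0 ≤ (1 / 2 + 344 / (n : ℝ)) / 2 := by positivity
  linarith [mul_le_mul_of_nonneg_left h1 hc, mul_le_mul_of_nonneg_left h2 hc]

end

end Vale.Agent.P243.Bundle
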