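import Mathlib

/-!
# P243 two-bundle covering: the logistic parameter
-/

namespace Vale.Agent.P243.Bundle

open Real

noncomputable section

/-- The derivative of the logistic function. -/
def gd (x : ℝ) : ℝ := sigmoid x * (1 - sigmoid x)

lemma sigmoid_eq (x : ℝ) : sigmoid x = exp x / (1 + exp x) := by
  have := exp_pos x
  rw [sigmoid_def, exp_neg]
  field_simp
  ring

lemma gd_eq (x : ℝ) : gd x = exp x / (1 + exp x) ^ 2 := by
  have := exp_pos x
  rw [gd, sigmoid_eq]
  field_simp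
  ring

lemma gd_pos (x : ℝ) : 0 < gd x := by
  rw [gd_eq]
  positivity

lemma sigmoid_log_div {a b : ℝ} (ha : 0 < a) (hb : 0 < b) :
    sigmoid (log (a / b)) = a / (a + b) := by
  rw [sigmoid_eq, exp_log (by positivity)]
  field_simp
  ring

lemma sigmoid_add_sub (x h : ℝ) :
    sigmoid (x + h) - sigmoid x
      = gd x * ((exp h - 1) * (1 + exp x) / (1 + exp x * exp h)) := by
  have := exp_pos x
  have := exp_pos h
  have : 0 < 1 + exp x * exp h := by positivity
  rw [sigmoid_eq, sigmoid_eq, gd_eq, exp_add]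
  field_simp
  ring

/-- Uniform second order approximation of the logistic function. -/
lemma abs_sigmoid_approx {x h : ℝ} (hh : |h| ≤ 1 / 4) :
    |sigmoid (x + h) - sigmoid x - gd x * h| ≤ gd x * (6 * h ^ 2) := by
  have hE := exp_pos x
  have h1 := abs_exp_sub_one_le (x := h) (by linarith)
  have h2 := abs_exp_sub_one_sub_id_le (x := h) (by linarith)
  have he : 1 / 2 ≤ exp h := by linarith [(abs_le.1 h1).1]
  set E := exp x with hEdef
  have hD : (1 + E) / 2 ≤ 1 + E * exp h := by nlinarith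
  have hD0 : 0 < 1 + E * exp h := by linarith
  have key : (exp h - 1) * (1 + E) / (1 + E * exp h) - h
      = ((exp h - 1 - h) * (1 + E) - h * E * (exp h - 1)) / (1 + E * exp h) := by
    field_simp
    ring
  rw [sigmoid_add_sub, show ∀ g R : ℝ, g * R - g * h = g * (R - h) by intros; ring, abs_mul,
    abs_of_pos (gd_pos x)]
  refine mul_le_mul_of_nonneg_left ?_ (gd_pos x).le
  rw [key, abs_div, abs_of_pos hD0, div_le_iff₀ hD0]
  calc |(exp h - 1 - h) * (1 + E) - h * E * (exp h - 1)|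
      ≤ |exp h - 1 - h| * (1 + E) + |h| * E * |exp h - 1| := by
        refine (abs_sub _ _).trans ?_
        rw [abs_mul, abs_mul, abs_mul, abs_of_pos (show 0 < 1 + E by linarith), abs_of_pos hE]
    _ ≤ h ^ 2 * (1 + E) + |h| * E * (2 * |h|) := by gcongr
    _ = h ^ 2 * (1 + E) + 2 * h ^ 2 * E := by rw [← sq_abs h]; ring
    _ ≤ 6 * h ^ 2 * ((1 + E) / 2) := by nlinarith [mul_nonneg (sq_nonneg h) hE.le]
    _ ≤ 6 * h ^ 2 * (1 + E * exp h) := by gcongr

lemma gd_mul_le {x d : ℝ} (hd : 0 ≤ d) (hd' : d ≤ 1) :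
    gd x * d ≤ (1 + 2 * d) * (sigmoid (x + d) - sigmoid x) := by
  have hE := exp_pos x
  have h1 : exp d ≤ 1 + 2 * d := by
    have := abs_exp_sub_one_le (x := d) (by rwa [abs_of_nonneg hd])
    rw [abs_of_nonneg hd] at this
    linarith [(abs_le.1 this).2]
  have h2 : d ≤ exp d - 1 := by linarith [add_one_le_exp d]
  have hD : 0 < 1 + exp x * exp d := by positivity
  rw [sigmoid_add_sub, ← mul_assoc, mul_comm (1 + 2 * d) (gd x), mul_assoc, ← mul_div_assoc]
  refine mul_le_mul_of_nonneg_left ?_ (gd_pos x).le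
  rw [le_div_iff₀ hD]
  calc d * (1 + exp x * exp d) ≤ (exp d - 1) * ((1 + 2 * d) * (1 + exp x)) := by
        refine mul_le_mul h2 ?_ (by positivity) (by linarith)
        nlinarith
    _ = (1 + 2 * d) * ((exp d - 1) * (1 + exp x)) := by ring

lemma sum_gd_up (a : ℝ) {d : ℝ} (hd : 0 ≤ d) (hd' : d ≤ 1) (M : ℕ) :
    ∑ k ∈ Finset.range M, gd (a + k * d) * d ≤ 1 + 2 * d := by
  calc ∑ k ∈ Finset.range M, gd (a + k * d) * d
      ≤ ∑ k ∈ Finset.range M,
          (1 + 2 * d) * (sigmoid (a + (k + 1 : ℕ) * d) - sigmoid (a + k * d)) := by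
        refine Finset.sum_le_sum fun k _ => ?_
        have := gd_mul_le (x := a + k * d) hd hd'
        rwa [show a + ((k + 1 : ℕ) : ℝ) * d = a + k * d + d by push_cast; ring]
    _ = (1 + 2 * d) * (sigmoid (a + M * d) - sigmoid a) := by
        rw [← Finset.mul_sum, Finset.sum_range_sub (fun k : ℕ => sigmoid (a + k * d))]
        simp
    _ ≤ (1 + 2 * d) * 1 := by
        gcongr
        linarith [sigmoid_le_one (a + M * d), sigmoid_nonneg a]
    _ = 1 + 2 * d := mul_one _

lemma sum_gd_down (a : ℝ) {d : ℝ} (hd : 0 ≤ d) (hd' : d ≤ 1) (M : ℕ) :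
    ∑ k ∈ Finset.range M, gd (a - k * d) * d ≤ 1 + 2 * d := by
  have h := sum_gd_up (a - (M - 1) * d) hd hd' M
  rw [← Finset.sum_range_reflect] at h
  refine le_of_eq_of_le (Finset.sum_congr rfl fun k hk => ?_) h
  rw [Finset.mem_range] at hk
  rw [Nat.cast_sub (by omega), Nat.cast_sub (by omega)]
  congr 2
  push_cast
  ring

lemma gd_ge {x : ℝ} (h0 : 0 ≤ x) (h2 : x ≤ 2) : 1 / 32 ≤ gd x := by
  have h1 : 1 ≤ exp x := one_le_exp h0
  have h8 : exp x ≤ 8 := by
    have : exp x ≤ exp 1 * exp 1 := by rw [← exp_add]; exact exp_le_exp.2 (by linarith)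
    nlinarith [exp_one_lt_d9, exp_pos 1]
  rw [gd_eq, le_div_iff₀ (by positivity)]
  nlinarith

lemma sigmoid_ge {x : ℝ} (h : 3 / 4 ≤ x) : 2 / 3 ≤ sigmoid x := by
  have h1 := quadratic_le_exp_of_nonneg (x := x) (by linarith)
  rw [sigmoid_eq, le_div_iff₀ (by positivity)]
  nlinarith [exp_pos x]

end

end Vale.Agent.P243.Bundle
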