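import Vale.Agent.P243.Bundle.Area
import Vale.Agent.P243.Bundle.Logistic

/-!
# P243 two-bundle covering: the tetrahedron, the needles and the covering property
-/

namespace Vale.Agent.P243.Bundle

open MeasureTheory Set Real

noncomputable section

/-- The tetrahedron. -/
def body : Set E3 := {x | 0 ≤ x 0 ∧ 0 ≤ x 1 ∧ x 1 ≤ x 2 ∧ x 0 + x 2 ≤ 1}

/-- Oblique horizontal coordinates along a segment of the first bundle. -/
def needleT (p q : ℝ) : E3 →ₗ[ℝ] ℝ × ℝ where
  toFun x := (x 0 + p * x 2, x 1 - q * x 2)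
  map_add' x y := by ext <;> simp <;> ring
  map_smul' r x := by ext <;> simp <;> ring

/-- The horizontal plane. -/
def horiz : ℝ × ℝ →ₗ[ℝ] E3 where
  toFun v := !₂[v.1, v.2, 0]
  map_add' x y := by ext i; fin_cases i <;> simp
  map_smul' r x := by ext i; fin_cases i <;> simp

/-- The linear part of the symmetry exchanging the two bundles. -/
def swapLin : E3 →ₗ[ℝ] E3 where
  toFun x := !₂[x 0, -(x 0) - x 2, -(x 0) - x 1]
  map_add' x y := by ext i; fin_cases i <;> simp <;> ring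
  map_smul' r x := by ext i; fin_cases i <;> simp <;> ring

/-- The translation part of the symmetry. -/
def swapVec : E3 := !₂[0, 1, 1]

lemma swap_mem {x : E3} (hx : x ∈ body) : swapLin x + swapVec ∈ body := by
  obtain ⟨h0, h1, h2, h3⟩ := hx
  refine ⟨?_, ?_, ?_, ?_⟩ <;> simp [swapLin, swapVec] <;> linarith

lemma swapLin_swapLin (x : E3) : swapLin (swapLin x) = x := by
  ext i
  fin_cases i <;> simp [swapLin]

lemma isCompact_body : IsCompact body := by
  refine Metric.isCompact_of_isClosed_isBounded ?_ ?_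
  · have hc : ∀ i, Continuous (fun x : E3 => x i) := fun i => PiLp.continuous_apply 2 _ i
    exact (isClosed_le continuous_const (hc 0)).inter
      ((isClosed_le continuous_const (hc 1)).inter
        ((isClosed_le (hc 1) (hc 2)).inter
          (isClosed_le ((hc 0).add (hc 2)) continuous_const)))
  · refine (Metric.isBounded_closedBall (x := (0 : E3)) (r := 2)).subset ?_
    rintro x ⟨h0, h1, h2, h3⟩
    rw [Metric.mem_closedBall, dist_zero_right, EuclideanSpace.norm_eq, Real.sqrt_le_left (by norm_num),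
      Fin.sum_univ_three]
    simp only [Real.norm_eq_abs, sq_abs]
    nlinarith

lemma convex_body : Convex ℝ body := by
  rintro x ⟨a0, a1, a2, a3⟩ y ⟨b0, b1, b2, b3⟩ s t hs ht hst
  refine ⟨?_, ?_, ?_, ?_⟩ <;> simp <;> nlinarith

lemma interior_body_nonempty : (interior body).Nonempty := by
  have ho : IsOpen {x : E3 | 0 < x 0 ∧ 0 < x 1 ∧ x 1 < x 2 ∧ x 0 + x 2 < 1} :=
    have hc : ∀ i, Continuous (fun x : E3 => x i) := fun i => PiLp.continuous_apply 2 _ i
    (isOpen_lt continuous_const (hc 0)).inter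
      ((isOpen_lt continuous_const (hc 1)).inter
        ((isOpen_lt (hc 1) (hc 2)).inter
          (isOpen_lt ((hc 0).add (hc 2)) continuous_const)))
  refine ⟨!₂[1 / 4, 1 / 4, 1 / 2], interior_maximal ?_ ho ?_⟩
  · rintro x ⟨h0, h1, h2, h3⟩
    exact ⟨h0.le, h1.le, h2.le, h3.le⟩
  · refine ⟨?_, ?_, ?_, ?_⟩ <;> simp <;> norm_num

lemma half_le_shadow {p q : ℝ} (hq0 : 0 ≤ q) (hq1 : q ≤ 1) :
    ENNReal.ofReal (1 / 2) ≤ volume (needleT p q '' body) := by
  refine half_le_two_triangles (p := p) hq0 hq1 ?_ ?_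
  · rintro w ⟨v, ⟨h0, h1, h2⟩, rfl⟩
    refine ⟨!₂[v.1, v.2, v.2], ⟨?_, ?_, ?_, ?_⟩, ?_⟩ <;> try simp <;> linarith
    ext <;> simp [needleT, mat] <;> ring
  · rintro w ⟨v, ⟨h0, h1, h2⟩, rfl⟩
    refine ⟨!₂[v.1, 0, v.2], ⟨?_, ?_, ?_, ?_⟩, ?_⟩ <;> try simp <;> linarith
    ext <;> simp [needleT, mat] <;> ring

/-- The oblique section of a needle. -/
def sect (c : ℝ × ℝ) (α β A B : ℝ) : Set (ℝ × ℝ) :=
  (fun v => c + mat (α / 2) (α / 2) (β / 2) (-(β / 2)) v) '' (Icc (-A) A ×ˢ Icc (-B) B)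

lemma volume_sect (c : ℝ × ℝ) {α β A B : ℝ} (hα : 0 ≤ α) (hβ : 0 ≤ β) (hA : 0 ≤ A) :
    volume (sect c α β A B) = ENNReal.ofReal (2 * α * β * A * B) := by
  rw [sect, volume_affine_rect _ _ _ _ _ _ _ _ _ (by linarith),
    show α / 2 * -(β / 2) - α / 2 * (β / 2) = -(α * β / 2) by ring, abs_neg,
    abs_of_nonneg (by positivity)]
  congr 1
  ring

lemma needle_one (p q α β A B : ℝ) (hq0 : 0 ≤ q) (hq1 : q ≤ 1) (hα : 0 ≤ α) (hβ : 0 ≤ β)
    (hA : 0 ≤ A) : ∃ (u : E3) (S : Set ↥(plane u)), ‖u‖ = 1 ∧ MeasurableSet S ∧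
      (∀ x, needleT p q x ∈ sect (p, 0) α β A B → projPlane u x ∈ S) ∧
      planeArea u S / planeArea u (projPlane u '' body) ≤ ENNReal.ofReal (4 * α * β * A * B) := by
  have h := exists_cylinder body (needleT p q) horiz !₂[-p, q, 1]
    (fun h => by simpa using congrArg (fun x : E3 => x 2) h)
    (by ext <;> simp [needleT]) (fun v => by ext <;> simp [needleT, horiz])
    (fun x => ⟨x 2, by ext i; fin_cases i <;> simp [needleT, horiz] <;> ring⟩)
    (half_le_shadow hq0 hq1) (sect (p, 0) α β A B) (isCompact_affine_rect _ _ _ _ _ _ _ _ _)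
    (2 * α * β * A * B) (volume_sect _ hα hβ hA).le
  rw [show 4 * α * β * A * B = 2 * (2 * α * β * A * B) by ring]
  exact h

lemma needle_two (p q α β A B : ℝ) (hq0 : 0 ≤ q) (hq1 : q ≤ 1) (hα : 0 ≤ α) (hβ : 0 ≤ β)
    (hA : 0 ≤ A) : ∃ (u : E3) (S : Set ↥(plane u)), ‖u‖ = 1 ∧ MeasurableSet S ∧
      (∀ x, needleT p q (swapLin x + swapVec) ∈ sect (p, 0) α β A B → projPlane u x ∈ S) ∧
      planeArea u S / planeArea u (projPlane u '' body) ≤ ENNReal.ofReal (4 * α * β * A * B) := by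
  have := isAddHaar_prod
  set T := needleT p q with hT
  set c := T swapVec with hc
  have hK : ENNReal.ofReal (1 / 2) ≤ volume (⇑(T ∘ₗ swapLin) '' body) := by
    refine (half_le_shadow (p := p) hq0 hq1).trans ?_
    rw [← volume_translate_image c (⇑(T ∘ₗ swapLin) '' body)]
    refine measure_mono ?_
    rintro w ⟨x, hx, rfl⟩
    refine ⟨T (swapLin (swapLin x + swapVec)), ⟨_, swap_mem hx, rfl⟩, ?_⟩
    simp only [hc, map_add, swapLin_swapLin]
    have : swapLin swapVec + swapVec = 0 := by ext i; fin_cases i <;> simp [swapLin, swapVec]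
    rw [add_left_comm, ← map_add T, add_comm swapVec, this, map_zero, add_zero]
  obtain ⟨u, S, hu, hS, hcov, harea⟩ := exists_cylinder body (T ∘ₗ swapLin) (swapLin ∘ₗ horiz)
    (swapLin !₂[-p, q, 1])
    (fun h => by
      have := congrArg swapLin h
      rw [swapLin_swapLin, map_zero] at this
      simpa using congrArg (fun x : E3 => x 2) this)
    (by simp only [LinearMap.comp_apply, swapLin_swapLin]; ext <;> simp [hT, needleT])
    (fun v => by simp only [LinearMap.comp_apply, swapLin_swapLin]; ext <;> simp [hT, needleT, horiz])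
    (fun x => ⟨swapLin x 2, by
      simp only [LinearMap.comp_apply, ← map_smul, ← map_add]
      conv_lhs => rw [← swapLin_swapLin x]
      congr 1
      generalize swapLin x = y
      ext i; fin_cases i <;> simp [hT, needleT, horiz] <;> ring⟩)
    hK ((fun v => -c + v) '' sect (p, 0) α β A B)
    ((isCompact_affine_rect _ _ _ _ _ _ _ _ _).image (by fun_prop)) (2 * α * β * A * B)
    (by rw [volume_translate_image, volume_sect _ hα hβ hA])
  refine ⟨u, S, hu, hS, fun x hx => hcov x ⟨_, hx, ?_⟩, ?_⟩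
  · simp [hc]
  · rw [show 4 * α * β * A * B = 2 * (2 * α * β * A * B) by ring]
    exact harea

/-- The point with parameters `(l, m)` at height `z` lies in the needle centred at `(l₀, l₀ - κ)`. -/
lemma mem_sect {z l m κ l₀ d D W p x₀ x₁ : ℝ} (hz0 : 0 ≤ z) (hz1 : z ≤ 1)
    (hl₀ : |(1 - z) * l + z * (m + κ) - l₀| ≤ d / 2) (hφ : |l - m - κ| ≤ D / 2) (hdD : d ≤ D)
    (hD : D ≤ 1 / 4) (hW : d / 2 + 2 * z * (1 - z) * |l - m - κ| + 6 * D ^ 2 ≤ W)
    (hp : p = sigmoid l₀) (hx₀ : x₀ = (1 - z) * sigmoid l) (hx₁ : x₁ = z * sigmoid m) :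
    (x₀ + p * z, x₁ - sigmoid (l₀ - κ) * z)
      ∈ sect (p, 0) (gd l₀) (gd (l₀ - κ)) (d / 2 + 6 * D ^ 2) W := by
  obtain ⟨φ, hφdef⟩ : ∃ φ, φ = l - m - κ := ⟨_, rfl⟩
  obtain ⟨s, hs⟩ : ∃ s, s = (1 - z) * l + z * (m + κ) - l₀ := ⟨_, rfl⟩
  rw [← hφdef] at hφ hW
  rw [← hs] at hl₀
  have hl : l - l₀ = s + z * φ := by rw [hs, hφdef]; ring
  have hm : m - (l₀ - κ) = s - (1 - z) * φ := by rw [hs, hφdef]; ring
  have hh1 : |l - l₀| ≤ D := by
    rw [hl]
    refine (abs_add_le _ _).trans ?_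
    rw [abs_mul, abs_of_nonneg hz0]
    linarith [mul_le_of_le_one_left (abs_nonneg φ) hz1]
  have hh2 : |m - (l₀ - κ)| ≤ D := by
    rw [hm]
    refine (abs_sub _ _).trans ?_
    rw [abs_mul, abs_of_nonneg (show 0 ≤ 1 - z by linarith)]
    linarith [mul_le_of_le_one_left (abs_nonneg φ) (show 1 - z ≤ 1 by linarith)]
  have e1 := abs_sigmoid_approx (x := l₀) (hh1.trans hD)
  have e2 := abs_sigmoid_approx (x := l₀ - κ) (hh2.trans hD)
  rw [add_sub_cancel] at e1 e2
  have hα := gd_pos l₀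
  have hβ := gd_pos (l₀ - κ)
  obtain ⟨a, ha⟩ : ∃ a, a = (sigmoid l - sigmoid l₀) / gd l₀ - (l - l₀) := ⟨_, rfl⟩
  obtain ⟨b, hb⟩ : ∃ b, b = (sigmoid m - sigmoid (l₀ - κ)) / gd (l₀ - κ) - (m - (l₀ - κ)) :=
    ⟨_, rfl⟩
  have ha' : |a| ≤ 6 * D ^ 2 := by
    rw [ha, div_sub' hα.ne', abs_div, abs_of_pos hα, div_le_iff₀ hα, mul_comm]
    refine (le_of_eq_of_le (by ring_nf) e1).trans ?_
    nlinarith [sq_le_sq' (abs_le.1 hh1).1 (abs_le.1 hh1).2]
  have hb' : |b| ≤ 6 * D ^ 2 := by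
    rw [hb, div_sub' hβ.ne', abs_div, abs_of_pos hβ, div_le_iff₀ hβ, mul_comm]
    refine (le_of_eq_of_le (by ring_nf) e2).trans ?_
    nlinarith [sq_le_sq' (abs_le.1 hh2).1 (abs_le.1 hh2).2]
  rw [abs_le] at ha' hb' hl₀
  have hz1' : 0 ≤ 1 - z := by linarith
  have u1 := mul_le_mul_of_nonneg_left ha'.1 hz1'
  have u2 := mul_le_mul_of_nonneg_left ha'.2 hz1'
  have u3 := mul_le_mul_of_nonneg_left hb'.1 hz0
  have u4 := mul_le_mul_of_nonneg_left hb'.2 hz0
  refine ⟨(s + ((1 - z) * a + z * b),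
    (1 - 2 * z) * s + 2 * z * (1 - z) * φ + ((1 - z) * a - z * b)), ⟨?_, ?_⟩, ?_⟩
  · simp only [mem_Icc]
    constructor <;> linarith
  · simp only [mem_Icc]
    have h1 : |(1 - 2 * z) * s| ≤ d / 2 := by
      rw [abs_mul]
      have : |1 - 2 * z| ≤ 1 := abs_le.2 ⟨by linarith, by linarith⟩
      linarith [mul_le_of_le_one_left (abs_nonneg s) this, abs_le.2 hl₀]
    have h2 : |2 * z * (1 - z) * φ| = 2 * z * (1 - z) * |φ| := by
      rw [abs_mul, abs_of_nonneg (by nlinarith : 0 ≤ 2 * z * (1 - z))]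
    rw [abs_le] at h1
    have h3 := le_abs_self (2 * z * (1 - z) * φ)
    have h4 := neg_abs_le (2 * z * (1 - z) * φ)
    constructor <;> linarith
  · have ea : gd l₀ * a = sigmoid l - sigmoid l₀ - gd l₀ * (s + z * φ) := by
      rw [ha, ← hl]; field_simp
    have eb : gd (l₀ - κ) * b
        = sigmoid m - sigmoid (l₀ - κ) - gd (l₀ - κ) * (s - (1 - z) * φ) := by
      rw [hb, ← hm]; field_simp
    simp only [mat_apply, Prod.mk_add_mk, Prod.mk.injEq]
    constructor
    · subst hp hx₀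
      linear_combination (1 - z) * ea
    · subst hx₁
      linear_combination z * eb

end

end Vale.Agent.P243.Bundle
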