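import Vale.Agent.P243.Bundle.Cost

/-!
# P243: a covering of the tetrahedron of relative area below one half
-/

namespace Vale.Agent.P243.Bundle

open MeasureTheory Real

noncomputable section

lemma covering_of_large (n : ℕ) (hn : 2 ≤ n) :
    ∃ (m : ℕ) (u : Fin m → E3) (B : Bases u), IsCylinderCover body u B ∧
      relativeArea body u B
        ≤ ENNReal.ofReal ((1 / 2 + 344 / n) * (1 + 8 / n) - 1 / 32768 + 8 / n) := by
  classical
  set N := 2 * MM n with hN
  have he : (0 : ℝ) ≤ 1 / n := by positivity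
  obtain ⟨uy, Sy, hy1, hy2, hy3, hy4⟩ := slab_y (1 / n) he
  obtain ⟨ux, Sx, hx1, hx2, hx3, hx4⟩ := slab_x (1 / n) he
  have hth : 0 ≤ thick n := by
    have := dl_pos hn
    rw [thick]
    positivity
  have h1 : ∀ p : Fin N × Fin N, ∃ (u : E3) (S : Set ↥(plane u)), ‖u‖ = 1 ∧ MeasurableSet S ∧
      (∀ x, needleT (sigmoid (par n p.1)) (sigmoid (par n p.1 - lev₁ n p.2)) x
          ∈ sect (sigmoid (par n p.1), 0) (gd (par n p.1)) (gd (par n p.1 - lev₁ n p.2)) (thick n)
            (wid n (dens n p.1 p.2)) → projPlane u x ∈ S) ∧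
      planeArea u S / planeArea u (projPlane u '' body) ≤ ENNReal.ofReal
        (4 * gd (par n p.1) * gd (par n p.1 - lev₁ n p.2) * thick n * wid n (dens n p.1 p.2)) :=
    fun p => needle_one _ _ _ _ _ _ (sigmoid_nonneg _) (sigmoid_le_one _) (gd_pos _).le
      (gd_pos _).le hth
  have h2 : ∀ p : Fin N × Fin N, ∃ (u : E3) (S : Set ↥(plane u)), ‖u‖ = 1 ∧ MeasurableSet S ∧
      (∀ x, needleT (sigmoid (par n p.1)) (sigmoid (par n p.1 - lev₂ n p.2))
          (swapLin x + swapVec)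
          ∈ sect (sigmoid (par n p.1), 0) (gd (par n p.1)) (gd (par n p.1 - lev₂ n p.2)) (thick n)
            (wid n (1 / 2)) → projPlane u x ∈ S) ∧
      planeArea u S / planeArea u (projPlane u '' body) ≤ ENNReal.ofReal
        (4 * gd (par n p.1) * gd (par n p.1 - lev₂ n p.2) * thick n * wid n (1 / 2)) :=
    fun p => needle_two _ _ _ _ _ _ (sigmoid_nonneg _) (sigmoid_le_one _) (gd_pos _).le
      (gd_pos _).le hth
  choose u1 S1 hu1 hm1 hc1 hr1 using h1
  choose u2 S2 hu2 hm2 hc2 hr2 using h2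
  let ι := Bool ⊕ ((Fin N × Fin N) ⊕ (Fin N × Fin N))
  let cyl : ι → Σ u : E3, Set ↥(plane u) := fun i => match i with
    | Sum.inl true => ⟨uy, Sy⟩
    | Sum.inl false => ⟨ux, Sx⟩
    | Sum.inr (Sum.inl p) => ⟨u1 p, S1 p⟩
    | Sum.inr (Sum.inr p) => ⟨u2 p, S2 p⟩
  have hunit : ∀ i, ‖(cyl i).1‖ = 1 := by
    rintro ((_ | _) | (p | p))
    · exact hx1
    · exact hy1
    · exact hu1 p
    · exact hu2 p
  have hmeas : ∀ i, MeasurableSet (cyl i).2 := by
    rintro ((_ | _) | (p | p))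
    · exact hx2
    · exact hy2
    · exact hm1 p
    · exact hm2 p
  have hcover : ∀ x ∈ body, ∃ i, projPlane (cyl i).1 x ∈ (cyl i).2 := by
    intro x hx
    by_cases ha : x 0 ≤ 1 / n
    · exact ⟨Sum.inl true, hy3 x hx (Or.inl ha)⟩
    by_cases hb : 1 - x 2 - x 0 ≤ 1 / n
    · exact ⟨Sum.inl true, hy3 x hx (Or.inr hb)⟩
    by_cases hc : x 1 ≤ 1 / n
    · exact ⟨Sum.inl false, hx3 x hx (Or.inl hc)⟩
    by_cases hd : x 2 - x 1 ≤ 1 / n
    · exact ⟨Sum.inl false, hx3 x hx (Or.inr hd)⟩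
    obtain ⟨a, ha', b, hb', h | h⟩ :=
      covered hn x (not_le.1 ha).le (not_le.1 hb).le (not_le.1 hc).le (not_le.1 hd).le
    · exact ⟨Sum.inr (Sum.inl (⟨a, ha'⟩, ⟨b, hb'⟩)), hc1 (⟨a, ha'⟩, ⟨b, hb'⟩) x h⟩
    · exact ⟨Sum.inr (Sum.inr (⟨a, ha'⟩, ⟨b, hb'⟩)), hc2 (⟨a, ha'⟩, ⟨b, hb'⟩) x h⟩
  let e := Fintype.equivFin ι
  refine ⟨Fintype.card ι, fun k => (cyl (e.symm k)).1, fun k => (cyl (e.symm k)).2,
    ⟨fun k => hunit _, fun k => hmeas _, fun x hx => ?_⟩, ?_⟩
  · obtain ⟨i, hi⟩ := hcover x hx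
    obtain ⟨k, rfl⟩ := e.symm.surjective i
    exact ⟨k, hi⟩
  have hw : ∀ θ : ℝ, 0 ≤ θ → 0 ≤ wid n θ := fun θ hθ => by
    have := dl_pos hn
    have := Dl_pos hn
    rw [wid]; positivity
  have hpos : ∀ (κ : ℕ → ℝ) (θ : ℕ → ℕ → ℝ), (∀ a b, 0 ≤ θ a b) → ∀ p : Fin N × Fin N,
      0 ≤ 4 * gd (par n p.1) * gd (par n p.1 - κ p.2) * thick n * wid n (θ p.1 p.2) :=
    fun κ θ hθ p => by
      have := gd_pos (par n p.1)
      have := gd_pos (par n p.1 - κ p.2)
      have := hw _ (hθ p.1 p.2)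
      positivity
  have hp1 := hpos (lev₁ n) (dens n) fun a b => by rw [dens]; split_ifs <;> norm_num
  have hp2 := hpos (lev₂ n) (fun _ _ => 1 / 2) fun a b => by norm_num
  calc relativeArea body (fun k => (cyl (e.symm k)).1) (fun k => (cyl (e.symm k)).2)
      = ∑ i, planeArea (cyl i).1 (cyl i).2
          / planeArea (cyl i).1 (projPlane (cyl i).1 '' body) :=
        Equiv.sum_comp e.symm fun i => planeArea (cyl i).1 (cyl i).2
          / planeArea (cyl i).1 (projPlane (cyl i).1 '' body)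
    _ ≤ ENNReal.ofReal (4 * (1 / n)) + ENNReal.ofReal (4 * (1 / n))
        + ((∑ p : Fin N × Fin N, ENNReal.ofReal
            (4 * gd (par n p.1) * gd (par n p.1 - lev₁ n p.2) * thick n * wid n (dens n p.1 p.2)))
          + ∑ p : Fin N × Fin N, ENNReal.ofReal
            (4 * gd (par n p.1) * gd (par n p.1 - lev₂ n p.2) * thick n * wid n (1 / 2))) := by
        rw [Fintype.sum_sum_type, Fintype.sum_sum_type, Fintype.sum_bool]
        exact add_le_add (add_le_add hy4 hx4)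
          (add_le_add (Finset.sum_le_sum fun p _ => hr1 p) (Finset.sum_le_sum fun p _ => hr2 p))
    _ ≤ _ := by
        rw [← ENNReal.ofReal_sum_of_nonneg fun p _ => hp1 p,
          ← ENNReal.ofReal_sum_of_nonneg fun p _ => hp2 p, ← ENNReal.ofReal_add (by positivity)
            (by positivity), ← ENNReal.ofReal_add (Finset.sum_nonneg fun p _ => hp1 p)
            (Finset.sum_nonneg fun p _ => hp2 p), ← ENNReal.ofReal_add (by positivity)
            (add_nonneg (Finset.sum_nonneg fun p _ => hp1 p) (Finset.sum_nonneg fun p _ => hp2 p))]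
        refine ENNReal.ofReal_le_ofReal ?_
        have hc := sum_cost_le hn
        simp only [Fintype.sum_prod_type, Finset.sum_range] at hc ⊢
        rw [hN]
        rw [show (8 : ℝ) / n = 2 * (4 * (1 / n)) by ring] at hc ⊢
        linarith

theorem exists_cover_below_half :
    ∃ K : Set E3, IsCompact K ∧ Convex ℝ K ∧ (interior K).Nonempty ∧
      ∃ (m : ℕ) (u : Fin m → E3) (B : Bases u),
        IsCylinderCover K u B ∧ relativeArea K u B ≤ ENNReal.ofReal (1 / 2 - 1 / 65536) := by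
  obtain ⟨m, u, B, hc, hr⟩ := covering_of_large (3200 * 65536) (by norm_num)
  refine ⟨body, isCompact_body, convex_body, interior_body_nonempty, m, u, B, hc,
    hr.trans (ENNReal.ofReal_le_ofReal ?_)⟩
  norm_num

end

end Vale.Agent.P243.Bundle
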