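import Vale.Agent.P243.Bundle.Slab

/-!
# P243 two-bundle covering: choosing a band and a needle
-/

namespace Vale.Agent.P243.Bundle

open MeasureTheory Set Real

noncomputable section

variable (n : ℕ)

/-- Band spacing. -/
def Dl : ℝ := 1 / (n : ℝ) ^ 2

/-- Needle spacing. -/
def dl : ℝ := 1 / (n : ℝ) ^ 3

/-- Half the number of indices. -/
def MM : ℕ := 8 * n ^ 4

/-- The signed index. -/
def idx (k : ℕ) : ℝ := (k : ℝ) - (MM n : ℕ)

/-- Band levels of the first bundle. -/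
def lev₁ (b : ℕ) : ℝ := idx n b * Dl n

/-- Band levels of the second bundle. -/
def lev₂ (b : ℕ) : ℝ := (idx n b + 1 / 2) * Dl n

/-- The parameter of a needle. -/
def par (a : ℕ) : ℝ := idx n a * dl n

open Classical in
/-- The density of a needle of the first bundle: lowered on a square of parameters. -/
def dens (a b : ℕ) : ℝ :=
  if (1 ≤ par n a ∧ par n a ≤ 2) ∧ (1 ≤ par n a - lev₁ n b ∧ par n a - lev₁ n b ≤ 2) then 7 / 16
  else 1 / 2

/-- The half length of a needle section across the band. -/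
def wid (θ : ℝ) : ℝ := θ * Dl n / 4 + dl n / 2 + 6 * Dl n ^ 2

/-- The half thickness of a needle section along the band. -/
def thick : ℝ := dl n / 2 + 6 * Dl n ^ 2

variable {n}

lemma Dl_pos (hn : 2 ≤ n) : 0 < Dl n := by
  have : (0 : ℝ) < n := by positivity
  rw [Dl]; positivity

lemma Dl_le (hn : 2 ≤ n) : Dl n ≤ 1 / 4 := by
  have : (2 : ℝ) ≤ n := by exact_mod_cast hn
  rw [Dl, div_le_div_iff₀ (by positivity) (by norm_num)]
  nlinarith

lemma dl_pos (hn : 2 ≤ n) : 0 < dl n := by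
  have : (0 : ℝ) < n := by positivity
  rw [dl]; positivity

lemma dl_le (hn : 2 ≤ n) : dl n ≤ Dl n := by
  have : (2 : ℝ) ≤ n := by exact_mod_cast hn
  rw [Dl, dl, div_le_div_iff₀ (by positivity) (by positivity)]
  nlinarith

lemma exists_index (t : ℝ) (h : |t| + 2 ≤ MM n) :
    ∃ k < 2 * MM n, |t - idx n k| ≤ 1 / 2 := by
  have h1 := abs_sub_round t
  have h2 : |(round t : ℝ)| ≤ |t| + 1 / 2 := by
    have := abs_sub_abs_le_abs_sub (round t : ℝ) t
    rw [abs_sub_comm] at this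
    linarith
  have h3 : |(round t : ℝ)| + 1 ≤ (MM n : ℕ) := by linarith
  rw [abs_le] at h1
  have ha : (-(MM n : ℤ) : ℤ) < round t ∧ round t < (MM n : ℤ) := by
    constructor
    · have : (-(MM n : ℕ) : ℝ) < (round t : ℝ) := by linarith [neg_abs_le (round t : ℝ)]
      exact_mod_cast this
    · have : (round t : ℝ) < (MM n : ℕ) := by linarith [le_abs_self (round t : ℝ)]
      exact_mod_cast this
  obtain ⟨k, hk⟩ := Int.eq_ofNat_of_zero_le (a := round t + MM n) (by omega)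
  refine ⟨k, by omega, ?_⟩
  have : idx n k = round t := by
    have : ((k : ℤ) : ℝ) = (round t : ℝ) + (MM n : ℕ) := by rw [← hk]; push_cast; ring
    rw [idx]
    push_cast at this
    linarith
  rw [this, abs_le]
  exact h1

lemma hit (hn : 2 ≤ n) {z l m κ : ℝ} (hz0 : 0 ≤ z) (hz1 : z ≤ 1) (hl : |l| ≤ n)
    (hκ : |l - m - κ| ≤ Dl n / 2) :
    ∃ a < 2 * MM n, |(1 - z) * l + z * (m + κ) - par n a| ≤ dl n / 2 ∧ |l - par n a| ≤ Dl n ∧
      |m - (par n a - κ)| ≤ Dl n := by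
  have hn' : (2 : ℝ) ≤ n := by exact_mod_cast hn
  have hd := dl_pos hn
  have hD := Dl_le hn
  obtain ⟨s, hs⟩ : ∃ s, s = (1 - z) * l + z * (m + κ) := ⟨_, rfl⟩
  have hs' : s = l - z * (l - m - κ) := by rw [hs]; ring
  have hzk : |z * (l - m - κ)| ≤ Dl n / 2 := by
    rw [abs_mul, abs_of_nonneg hz0]
    exact (mul_le_of_le_one_left (abs_nonneg _) hz1).trans hκ
  have hsb : |s| ≤ n + 1 := by
    rw [abs_le] at hl hzk ⊢
    constructor <;> linarith
  obtain ⟨a, ha, ht⟩ := exists_index (n := n) (s / dl n) (by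
    rw [abs_div, abs_of_pos hd, dl, div_div_eq_mul_div, div_one, MM]
    push_cast
    nlinarith [pow_le_pow_left₀ (by norm_num) hn' 3, abs_nonneg s])
  refine ⟨a, ha, ?_⟩
  have h1 : |s - par n a| ≤ dl n / 2 := by
    rw [show s - par n a = (s / dl n - idx n a) * dl n by rw [par]; field_simp, abs_mul,
      abs_of_pos hd]
    nlinarith
  rw [← hs]
  refine ⟨h1, ?_, ?_⟩
  · have := dl_le hn
    rw [abs_le] at h1 hzk ⊢
    constructor <;> linarith
  · have h2 : |(1 - z) * (l - m - κ)| ≤ Dl n / 2 := by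
      rw [abs_mul, abs_of_nonneg (sub_nonneg.2 hz1)]
      exact (mul_le_of_le_one_left (abs_nonneg _) (by linarith)).trans hκ
    have := dl_le hn
    rw [abs_le] at h1 h2 ⊢
    constructor <;> linarith [hs.le, hs.ge]

lemma log_div_abs_le (hn : 2 ≤ n) {a b : ℝ} (ha : 1 / (n : ℝ) ≤ a) (ha1 : a ≤ 1)
    (hb : 1 / (n : ℝ) ≤ b) (hb1 : b ≤ 1) : |log (a / b)| ≤ n := by
  have hn' : (0 : ℝ) < n := by positivity
  have key : ∀ c : ℝ, 1 / (n : ℝ) ≤ c → c ≤ 1 → -(n : ℝ) ≤ log c ∧ log c ≤ 0 := by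
    intro c hc hc1
    have hc0 : 0 < c := lt_of_lt_of_le (by positivity) hc
    refine ⟨le_trans ?_ (log_le_log (by positivity) hc), log_nonpos hc0.le hc1⟩
    rw [one_div, log_inv]
    linarith [log_le_sub_one_of_pos hn']
  have ha0 : 0 < a := lt_of_lt_of_le (by positivity) ha
  have hb0 : 0 < b := lt_of_lt_of_le (by positivity) hb
  obtain ⟨p1, p2⟩ := key a ha ha1
  obtain ⟨q1, q2⟩ := key b hb hb1
  rw [log_div ha0.ne' hb0.ne', abs_le]
  constructor <;> linarith

lemma le_of_abs_le {l r D : ℝ} (h : |l - r| ≤ D) (hr : 1 ≤ r) (hD : D ≤ 1 / 4) : 3 / 4 ≤ l := by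
  rw [abs_le] at h
  linarith

lemma low_height {z p q : ℝ} (hz0 : 0 ≤ z) (hz1 : z ≤ 1) (hp : 2 / 3 ≤ p) (hq : 2 / 3 ≤ q) :
    1 - (1 - z) * p - z * q ≤ 1 / 3 := by
  linarith [mul_le_mul_of_nonneg_left hp (sub_nonneg.2 hz1), mul_le_mul_of_nonneg_left hq hz0]

lemma second_covers_low {z z' f D : ℝ}
    (hf : 0 ≤ f) (hfD : f ≤ D / 2) (hz3 : z' ≤ 1 / 3)
    (hin : 7 / 16 * D / 4 < 2 * z * (1 - z) * f) :
    2 * z' * (1 - z') * (D / 2 - f) ≤ 1 / 2 * D / 4 := by
  have hq : 2 * z * (1 - z) * f ≤ 1 / 2 * f :=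
    mul_le_mul_of_nonneg_right (by nlinarith [sq_nonneg (2 * z - 1)]) hf
  have hr : 2 * z' * (1 - z') * (D / 2 - f) ≤ 4 / 9 * (D / 2 - f) :=
    mul_le_mul_of_nonneg_right
      (by nlinarith [mul_nonneg (sub_nonneg.2 hz3) (show 0 ≤ 2 / 3 - z' by linarith)]) (by linarith)
  linarith

lemma second_covers {z z' f D : ℝ} (hfD : f ≤ D / 2) (hf : 0 ≤ f)
    (hin : 1 / 2 * D / 4 < 2 * z * (1 - z) * f) :
    2 * z' * (1 - z') * (D / 2 - f) ≤ 1 / 2 * D / 4 := by
  have hq : 2 * z * (1 - z) * f ≤ 1 / 2 * f :=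
    mul_le_mul_of_nonneg_right (by nlinarith [sq_nonneg (2 * z - 1)]) hf
  have hr : 2 * z' * (1 - z') * (D / 2 - f) ≤ 1 / 2 * (D / 2 - f) :=
    mul_le_mul_of_nonneg_right (by nlinarith [sq_nonneg (2 * z' - 1)]) (by linarith)
  linarith

/-- A point away from the boundary lies in a needle of one of the two bundles. -/
lemma covered (hn : 2 ≤ n) (x : E3) (ha : 1 / (n : ℝ) ≤ x 0) (hb : 1 / (n : ℝ) ≤ 1 - x 2 - x 0)
    (hc : 1 / (n : ℝ) ≤ x 1) (hd : 1 / (n : ℝ) ≤ x 2 - x 1) :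
    ∃ a < 2 * MM n, ∃ b < 2 * MM n,
      needleT (sigmoid (par n a)) (sigmoid (par n a - lev₁ n b)) x
        ∈ sect (sigmoid (par n a), 0) (gd (par n a)) (gd (par n a - lev₁ n b)) (thick n)
            (wid n (dens n a b)) ∨
      needleT (sigmoid (par n a)) (sigmoid (par n a - lev₂ n b)) (swapLin x + swapVec)
        ∈ sect (sigmoid (par n a), 0) (gd (par n a)) (gd (par n a - lev₂ n b)) (thick n)
            (wid n (1 / 2)) := by
  have hD := Dl_pos hn
  have hn0 : 0 < 1 / (n : ℝ) := by positivity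
  obtain ⟨z, hz⟩ : ∃ z, z = x 2 := ⟨_, rfl⟩
  obtain ⟨z', hz'⟩ : ∃ z', z' = 1 - x 0 - x 1 := ⟨_, rfl⟩
  obtain ⟨l, hl⟩ : ∃ l, l = log (x 0 / (1 - x 2 - x 0)) := ⟨_, rfl⟩
  obtain ⟨m, hm⟩ : ∃ m, m = log (x 1 / (x 2 - x 1)) := ⟨_, rfl⟩
  obtain ⟨l', hl'⟩ : ∃ l', l' = log (x 0 / x 1) := ⟨_, rfl⟩
  obtain ⟨m', hm'⟩ : ∃ m', m' = log ((1 - x 2 - x 0) / (x 2 - x 1)) := ⟨_, rfl⟩
  have hlm : l' - m' = l - m := by
    rw [hl, hm, hl', hm', log_div (by linarith) (by linarith), log_div (by linarith) (by linarith),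
      log_div (by linarith) (by linarith), log_div (by linarith) (by linarith)]
    ring
  have bl : |l| ≤ n := hl ▸ log_div_abs_le hn ha (by linarith) hb (by linarith)
  have bm : |m| ≤ n := hm ▸ log_div_abs_le hn hc (by linarith) hd (by linarith)
  have bl' : |l'| ≤ n := hl' ▸ log_div_abs_le hn ha (by linarith) hc (by linarith)
  have bm' : |m'| ≤ n := hm' ▸ log_div_abs_le hn hb (by linarith) hd (by linarith)
  have e0 : x 0 = (1 - z) * sigmoid l := by
    rw [hl, sigmoid_log_div (by linarith) (by linarith), hz,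
      show x 0 + (1 - x 2 - x 0) = 1 - x 2 by ring]
    have : 1 - x 2 ≠ 0 := by linarith
    field_simp
  have e1 : x 1 = z * sigmoid m := by
    rw [hm, sigmoid_log_div (by linarith) (by linarith), hz,
      show x 1 + (x 2 - x 1) = x 2 by ring]
    have : x 2 ≠ 0 := by linarith
    field_simp
  have e0' : x 0 = (1 - z') * sigmoid l' := by
    rw [hl', sigmoid_log_div (by linarith) (by linarith), hz',
      show 1 - (1 - x 0 - x 1) = x 0 + x 1 by ring]
    have : x 0 + x 1 ≠ 0 := by linarith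
    field_simp
  have e1' : 1 - x 2 - x 0 = z' * sigmoid m' := by
    rw [hm', sigmoid_log_div (by linarith) (by linarith), hz',
      show 1 - x 2 - x 0 + (x 2 - x 1) = 1 - x 0 - x 1 by ring]
    have : 1 - x 0 - x 1 ≠ 0 := by linarith
    field_simp
  have hz0 : 0 ≤ z := by linarith
  have hz1 : z ≤ 1 := by linarith
  have hz0' : 0 ≤ z' := by linarith
  have hz1' : z' ≤ 1 := by linarith
  have bnd : ∀ t : ℝ, |t| ≤ 2 * n + 1 → |t / Dl n| + 2 ≤ (MM n : ℕ) := by
    intro t ht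
    rw [abs_div, abs_of_pos hD, Dl, div_div_eq_mul_div, div_one, MM]
    push_cast
    have hn' : (2 : ℝ) ≤ n := by exact_mod_cast hn
    nlinarith [pow_le_pow_left₀ (by norm_num) hn' 2, abs_nonneg t, mul_nonneg (mul_nonneg
      (show (0 : ℝ) ≤ n by linarith) (show (0 : ℝ) ≤ n by linarith)) (show (0:ℝ) ≤ n - 2 by linarith)]
  obtain ⟨b, hb', hk⟩ := exists_index (n := n) ((l - m) / Dl n) (bnd _ (by
    rw [abs_le] at bl bm ⊢; constructor <;> linarith))
  obtain ⟨φ, hφ⟩ : ∃ φ, φ = l - m - lev₁ n b := ⟨_, rfl⟩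
  have hφD : |φ| ≤ Dl n / 2 := by
    rw [hφ, show l - m - lev₁ n b = ((l - m) / Dl n - idx n b) * Dl n by
      rw [lev₁]; field_simp, abs_mul, abs_of_pos hD]
    nlinarith
  obtain ⟨a, ha', hs, hla, hma⟩ := hit hn (κ := lev₁ n b) hz0 hz1 bl (hφ ▸ hφD)
  by_cases hin : 2 * z * (1 - z) * |φ| ≤ dens n a b * Dl n / 4
  · refine ⟨a, ha', b, hb', Or.inl ?_⟩
    have := mem_sect (W := wid n (dens n a b)) (l₀ := par n a) hz0 hz1 hs (hφ ▸ hφD) (dl_le hn)
      (Dl_le hn) (by rw [wid, ← hφ]; linarith) rfl e0 e1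
    simpa [needleT, thick, hz] using this
  · -- the second bundle covers
    obtain ⟨ψ, hψ, b₂, hb₂, hψ'⟩ : ∃ ψ : ℝ, |ψ| = Dl n / 2 - |φ| ∧
        ∃ b₂ < 2 * MM n, l' - m' - lev₂ n b₂ = ψ := by
      rcases le_total 0 φ with h | h
      · refine ⟨φ - Dl n / 2, ?_, b, hb', by rw [hlm, hφ, lev₂, lev₁]; ring⟩
        rw [abs_of_nonneg h] at hφD ⊢
        rw [abs_of_nonpos (by linarith)]
        ring
      · have hb0 : 1 ≤ b := by
          by_contra hb0
          have hb0 : b = 0 := by omega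
          subst hb0
          have hlev : lev₁ n 0 = -((MM n : ℕ) : ℝ) * Dl n := by simp [lev₁, idx]
          have h2 : 2 * (n : ℝ) + 1 < (MM n : ℕ) * Dl n := by
            have := bnd (2 * n + 1) (by rw [abs_of_nonneg (by positivity)])
            rw [abs_of_nonneg (by positivity), div_add' _ _ _ hD.ne', div_le_iff₀ hD] at this
            linarith
          rw [abs_le] at bl bm
          linarith
        refine ⟨φ + Dl n / 2, ?_, b - 1, by omega, ?_⟩
        · rw [abs_of_nonpos h] at hφD ⊢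
          rw [abs_of_nonneg (by linarith)]
          ring
        · rw [hlm, hφ, lev₂, lev₁, idx, idx, Nat.cast_sub hb0]
          push_cast
          ring
    have hψD : |l' - m' - lev₂ n b₂| ≤ Dl n / 2 := by rw [hψ', hψ]; linarith [abs_nonneg φ]
    have hkey : 2 * z' * (1 - z') * |ψ| ≤ 1 / 2 * Dl n / 4 := by
      rw [hψ]
      rw [not_le] at hin
      by_cases hreg : (1 ≤ par n a ∧ par n a ≤ 2) ∧
          (1 ≤ par n a - lev₁ n b ∧ par n a - lev₁ n b ≤ 2)
      · rw [dens, if_pos hreg] at hin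
        refine second_covers_low (abs_nonneg φ) hφD ?_ hin
        rw [hz', e0, e1]
        have hD4 := Dl_le hn
        exact low_height hz0 hz1 (sigmoid_ge (le_of_abs_le hla hreg.1.1 hD4))
          (sigmoid_ge (le_of_abs_le hma hreg.2.1 hD4))
      · rw [dens, if_neg hreg] at hin
        exact second_covers hφD (abs_nonneg φ) hin
    obtain ⟨a₂, ha₂, hs₂, -, -⟩ := hit hn (κ := lev₂ n b₂) hz0' hz1' bl' hψD
    refine ⟨a₂, ha₂, b₂, hb₂, Or.inr ?_⟩
    have := mem_sect (W := wid n (1 / 2)) (l₀ := par n a₂) hz0' hz1' hs₂ hψD (dl_le hn) (Dl_le hn)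
      (by rw [wid, hψ']; linarith) rfl e0' e1'
    have heq : needleT (sigmoid (par n a₂)) (sigmoid (par n a₂ - lev₂ n b₂)) (swapLin x + swapVec)
        = (x 0 + sigmoid (par n a₂) * z', 1 - x 2 - x 0 - sigmoid (par n a₂ - lev₂ n b₂) * z') := by
      ext <;> simp [needleT, swapLin, swapVec, hz'] <;> first | (left; ring) | ring
    rw [heq]
    exact this

end

end Vale.Agent.P243.Bundle
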