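import Vale.Agent.P243.Bundle.Cover

/-!
# P243 two-bundle covering: the two cylinders absorbing a neighbourhood of the boundary
-/

namespace Vale.Agent.P243.Bundle

open MeasureTheory Set

noncomputable section

lemma slab_y (e : ℝ) (he : 0 ≤ e) : ∃ (u : E3) (S : Set ↥(plane u)), ‖u‖ = 1 ∧ MeasurableSet S ∧
    (∀ x ∈ body, (x 0 ≤ e ∨ 1 - x 2 - x 0 ≤ e) → projPlane u x ∈ S) ∧
    planeArea u S / planeArea u (projPlane u '' body) ≤ ENNReal.ofReal (4 * e) := by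
  let T : E3 →ₗ[ℝ] ℝ × ℝ :=
    { toFun := fun x => (x 0, x 2)
      map_add' := fun x y => by ext <;> simp
      map_smul' := fun r x => by ext <;> simp }
  let R : ℝ × ℝ →ₗ[ℝ] E3 :=
    { toFun := fun v => !₂[v.1, 0, v.2]
      map_add' := fun x y => by ext i; fin_cases i <;> simp
      map_smul' := fun r x => by ext i; fin_cases i <;> simp }
  let A₁ := (fun v => (0 : ℝ × ℝ) + mat 1 0 0 1 v) '' (Icc 0 e ×ˢ Icc (0 : ℝ) 1)
  let A₂ := (fun v => (0 : ℝ × ℝ) + mat 1 (-1) 0 1 v) '' (Icc (1 - e) 1 ×ˢ Icc (0 : ℝ) 1)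
  obtain ⟨u, S, hu, hS, hcov, harea⟩ := exists_cylinder body T R !₂[(0 : ℝ), 1, 0]
    (fun h => by simpa using congrArg (fun x : E3 => x 1) h)
    (by ext <;> simp [T]) (fun v => by ext <;> simp [T, R])
    (fun x => ⟨x 1, by ext i; fin_cases i <;> simp [T, R]⟩)
    (half_le_volume_tri.trans (measure_mono fun v ⟨h0, h1, h2⟩ =>
      ⟨!₂[v.1, 0, v.2], ⟨by simpa using h0, by simp, by simpa using h1, by simpa using h2⟩,
        by ext <;> simp [T]⟩))
    (A₁ ∪ A₂) ((isCompact_affine_rect _ _ _ _ _ _ _ _ _).union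
      (isCompact_affine_rect _ _ _ _ _ _ _ _ _)) (2 * e)
    (by
      refine (measure_union_le _ _).trans ?_
      rw [volume_affine_rect _ _ _ _ _ _ _ _ _ he,
        volume_affine_rect _ _ _ _ _ _ _ _ _ (by linarith), ← ENNReal.ofReal_add]
      · refine ENNReal.ofReal_le_ofReal ?_
        norm_num
        linarith
      all_goals norm_num [he])
  refine ⟨u, S, hu, hS, fun x ⟨h0, h1, h2, h3⟩ h => hcov x ?_, by
    rwa [show 4 * e = 2 * (2 * e) by ring]⟩
  rcases h with h | h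
  · refine Or.inl ⟨(x 0, x 2), ⟨⟨h0, h⟩, by linarith, by linarith⟩, ?_⟩
    ext <;> simp [T]
  · refine Or.inr ⟨(x 0 + x 2, x 2), ⟨⟨by linarith, h3⟩, by linarith, by linarith⟩, ?_⟩
    ext <;> simp [T]

lemma slab_x (e : ℝ) (he : 0 ≤ e) : ∃ (u : E3) (S : Set ↥(plane u)), ‖u‖ = 1 ∧ MeasurableSet S ∧
    (∀ x ∈ body, (x 1 ≤ e ∨ x 2 - x 1 ≤ e) → projPlane u x ∈ S) ∧
    planeArea u S / planeArea u (projPlane u '' body) ≤ ENNReal.ofReal (4 * e) := by
  let T : E3 →ₗ[ℝ] ℝ × ℝ :=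
    { toFun := fun x => (x 1, x 2)
      map_add' := fun x y => by ext <;> simp
      map_smul' := fun r x => by ext <;> simp }
  let R : ℝ × ℝ →ₗ[ℝ] E3 :=
    { toFun := fun v => !₂[0, v.1, v.2]
      map_add' := fun x y => by ext i; fin_cases i <;> simp
      map_smul' := fun r x => by ext i; fin_cases i <;> simp }
  let A₁ := (fun v => (0 : ℝ × ℝ) + mat 1 0 0 1 v) '' (Icc 0 e ×ˢ Icc (0 : ℝ) 1)
  let A₂ := (fun v => (0 : ℝ × ℝ) + mat (-1) 1 0 1 v) '' (Icc 0 e ×ˢ Icc (0 : ℝ) 1)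
  have hshadow : mat 1 0 1 1 '' tri ⊆ T '' body := by
    rintro w ⟨v, ⟨h0, h1, h2⟩, rfl⟩
    refine ⟨!₂[0, v.1, v.1 + v.2], ⟨by simp, by simpa using h0, by simpa using h1,
      by simpa using h2⟩, ?_⟩
    ext <;> simp [T]
  obtain ⟨u, S, hu, hS, hcov, harea⟩ := exists_cylinder body T R !₂[(1 : ℝ), 0, 0]
    (fun h => by simpa using congrArg (fun x : E3 => x 0) h)
    (by ext <;> simp [T]) (fun v => by ext <;> simp [T, R])
    (fun x => ⟨x 0, by ext i; fin_cases i <;> simp [T, R]⟩)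
    (half_le_volume_tri.trans ((le_of_eq (by rw [volume_mat_image]; norm_num)).trans
      (measure_mono hshadow)))
    (A₁ ∪ A₂) ((isCompact_affine_rect _ _ _ _ _ _ _ _ _).union
      (isCompact_affine_rect _ _ _ _ _ _ _ _ _)) (2 * e)
    (by
      refine (measure_union_le _ _).trans ?_
      rw [volume_affine_rect _ _ _ _ _ _ _ _ _ he, volume_affine_rect _ _ _ _ _ _ _ _ _ he,
        ← ENNReal.ofReal_add]
      · refine ENNReal.ofReal_le_ofReal ?_
        norm_num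
        linarith
      all_goals norm_num [he])
  refine ⟨u, S, hu, hS, fun x ⟨h0, h1, h2, h3⟩ h => hcov x ?_, by
    rwa [show 4 * e = 2 * (2 * e) by ring]⟩
  rcases h with h | h
  · refine Or.inl ⟨(x 1, x 2), ⟨⟨h1, h⟩, by linarith, by linarith⟩, ?_⟩
    ext <;> simp [T]
  · refine Or.inr ⟨(x 2 - x 1, x 2), ⟨⟨by linarith, h⟩, by linarith, by linarith⟩, ?_⟩
    ext <;> simp [T]

end

end Vale.Agent.P243.Bundle
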